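import Vale.Agent.P338.R3.H282.Step
import Vale.Agent.P338.R3.H352.Run

/-!
P338-D, LIP: binary logarithms of the Lipschitz constants of the steps of `H282.Step`.

* `lgD β ad c`: bound of the global diagonal `c`, if the local diagonals are at most `2 ^ β` and
  the radices at most `2 ^ a` (`ad = a * d`);
* `lgS β ad st`: the same for a step;
* `norm_val`: every entry of the diagonal is at most `2 ^ lgD β ad c`;
* `norm_ex`: the sup norm of the array grows at most by `2 ^ lgS β ad st`;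
* `norm_word`: fixed point constants.
-/

namespace Vale.Agent.P338.R3.H288

open Vale.Agent.P338.R3.H282
open Vale.Agent.P338.R3.H352 (zt norm_zt Dc)

variable {δ : Type}

/-- binary logarithm of the bound of a global diagonal -/
def lgD (β ad : ℕ) : DC δ → ℕ
  | .loc J _ => β * J.length
  | .shA _ _ => 0
  | .shB _ _ => 0
  | .hd _ => 1
  | .tw _ _ => 0
  | .corr => ad

/-- binary logarithm of the Lipschitz constant of a step -/
def lgS (β ad : ℕ) : St δ → ℕ
  | .dn J => J.length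
  | .up J => J.length
  | .dg c => lgD β ad c

theorem norm_prod_map_le {ι : Type*} (J : List ι) (f : ι → ℂ) {K : ℝ}
    (h : ∀ i ∈ J, ‖f i‖ ≤ K) : ‖(J.map f).prod‖ ≤ K ^ J.length := by
  induction J with
  | nil => simp
  | cons i J ih =>
    have h1 := h i List.mem_cons_self
    have h0 : 0 ≤ K := (norm_nonneg _).trans h1
    rw [List.map_cons, List.prod_cons, norm_mul, List.length_cons, pow_succ, mul_comm (K ^ _)]
    exact mul_le_mul h1 (ih fun i hi => h i (List.mem_cons_of_mem _ hi)) (norm_nonneg _) h0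

theorem norm_prod_map_one {ι : Type*} (J : List ι) (f : ι → ℂ) (h : ∀ i ∈ J, ‖f i‖ = 1) :
    ‖(J.map f).prod‖ = 1 := by
  induction J with
  | nil => simp
  | cons i J ih =>
    rw [List.map_cons, List.prod_cons, norm_mul, h i List.mem_cons_self,
      ih fun i hi => h i (List.mem_cons_of_mem _ hi), one_mul]

theorem norm_ph (G : Geo) (neg : Bool) (u i w : ℕ) : ‖G.ph neg u i w‖ = 1 := by
  unfold Geo.ph
  first
    | exact norm_zt _ _
    | rw [norm_neg]; exact norm_zt _ _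

/-- **The bound of the diagonals.** -/
theorem norm_val {G : Geo} {lv : ℕ → δ → ℕ → ℂ} {β : ℕ}
    (hlv : ∀ i c p, ‖lv (G.q i) c p‖ ≤ 2 ^ β) (hq : ∀ i, G.q i ≤ 2 ^ G.a) (c : DC δ) (u : ℕ) :
    ‖G.val lv c u‖ ≤ 2 ^ lgD β (G.a * G.d) c := by
  cases c with
  | loc J c =>
    refine (norm_prod_map_le J _ fun i _ => hlv i c _).trans ?_
    rw [← pow_mul]
    exact le_refl _
  | shA neg p =>
    refine (norm_prod_map_one _ _ fun i _ => norm_ph G neg u i _).le.trans ?_
    simp [lgD]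
  | shB neg g =>
    refine (norm_prod_map_one _ _ fun i _ => norm_ph G neg u i _).le.trans ?_
    simp [lgD]
  | hd i =>
    simp only [Geo.val, lgD]
    split_ifs
    · rw [norm_neg, Complex.norm_ofNat]; norm_num
    · rw [norm_one]; norm_num
  | tw inv i =>
    simp only [Geo.val, lgD]
    split_ifs
    · rw [norm_zt]; norm_num
    · rw [norm_zt]; norm_num
    · rw [norm_one]; norm_num
  | corr =>
    simp only [Geo.val, lgD]
    rw [norm_mul, norm_div, norm_pow, norm_pow, norm_neg, norm_one, one_pow, Complex.norm_ofNat]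
    have h1 : (1 : ℝ) / 2 ^ G.s ≤ 1 := by
      rw [div_le_one (by positivity)]
      exact one_le_pow₀ (by norm_num)
    have h2 : ‖((List.range G.d).map fun i =>
        if G.rb u i then (1 : ℂ) else -(G.q i : ℂ)).prod‖ ≤ (2 ^ G.a) ^ (List.range G.d).length := by
      refine norm_prod_map_le _ _ fun i _ => ?_
      split_ifs
      · rw [norm_one]
        exact one_le_pow₀ (by norm_num)
      · rw [norm_neg, Complex.norm_natCast]
        exact_mod_cast hq i
    rw [List.length_range, ← pow_mul] at h2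
    calc _ ≤ 1 * (2 : ℝ) ^ (G.a * G.d) := mul_le_mul h1 h2 (norm_nonneg _) (by norm_num)
      _ = _ := one_mul _

/-- the local diagonals of `H352.Dc` -/
theorem norm_Dc (a : ℕ) {q : ℕ} (hq : 0 < q) (c : Dc) (p : ℕ) :
    ‖Dc.val a q c p‖ ≤ 2 ^ (a + 2) := by
  refine (H352.norm_val hq c p).trans ?_
  rw [pow_add]
  have : (0 : ℝ) < 2 ^ a := by positivity
  linarith

/-- sharper: binary logarithm of the bound of every local diagonal -/
def lgL (a : ℕ) : Dc → ℕ
  | .bA _ => 1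
  | .mul _ _ => a + 2
  | _ => 0

theorem norm_Dc' (a : ℕ) {q : ℕ} (hq : 0 < q) (c : Dc) (p : ℕ) :
    ‖Dc.val a q c p‖ ≤ 2 ^ lgL a c := by
  cases c with
  | bA t =>
    simp only [Dc.val, H352.gA, lgL]
    split_ifs
    · rw [norm_one]; norm_num
    · rw [norm_neg, Complex.norm_ofNat]; norm_num
  | bB t =>
    simp only [Dc.val, H352.gB, lgL]
    split_ifs
    · rw [norm_one]; norm_num
    · rw [norm_zt]; norm_num
  | bC t =>
    simp only [Dc.val, H352.gB', lgL]
    split_ifs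
    · rw [norm_div, norm_one, Complex.norm_ofNat]; norm_num
    · rw [norm_div, norm_zt, Complex.norm_ofNat]; norm_num
  | psi neg =>
    simp only [Dc.val, lgL]
    rw [norm_zt]; norm_num
  | pre w =>
    simp only [Dc.val, H352.chp, H352.chi, lgL]
    split_ifs
    · rw [norm_zt]; norm_num
    · rw [norm_zt]; norm_num
  | post w =>
    simp only [Dc.val, H352.chp, H352.chi, lgL]
    split_ifs
    · rw [norm_zt]; norm_num
    · rw [norm_zt]; norm_num
    · rw [norm_zero]; norm_num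
  | mul w sg => exact norm_Dc a hq (.mul w sg) p
  | div w sg =>
    simp only [Dc.val, lgL]
    have h1 : (1 : ℝ) ≤ 2 ^ a := one_le_pow₀ (by norm_num)
    split_ifs
    · rw [norm_inv, pow_zero]
      have h2 := H352.le_norm_lam hq a w sg (p % 2 ^ a)
      exact inv_le_one_of_one_le₀ (by linarith)
    · rw [norm_one]; norm_num

/-! ### Sup norm of the arrays -/

section Ex

variable {M : Type*} [NormedAddCommGroup M]

/-- all entries are at most `B` -/
def Bdd (N : ℕ) (f : ℕ → M) (B : ℝ) : Prop := ∀ u < N, ‖f u‖ ≤ B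

theorem lt_of_testBit_false {K b u : ℕ} (hb : b < K) (hu : u < 2 ^ K) (h : u.testBit b = false) :
    u + 2 ^ b < 2 ^ K := by
  rw [Nat.testBit_eq_decide_div_mod_eq] at h
  have h1 : u / 2 ^ b % 2 = 0 := by
    have := of_decide_eq_false h
    omega
  obtain ⟨c, rfl⟩ : ∃ c, K = b + 1 + c := ⟨K - (b + 1), by omega⟩
  have h2 : u / 2 ^ b < 2 ^ (c + 1) := by
    rw [Nat.div_lt_iff_lt_mul (by positivity)]
    calc u < _ := hu
      _ = _ := by ring
  have h3 : u / 2 ^ b + 1 < 2 ^ (c + 1) := by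
    have : 2 ^ (c + 1) % 2 = 0 := by rw [pow_succ]; omega
    omega
  have h4 : u + 2 ^ b < 2 ^ b * (u / 2 ^ b + 1 + 1) := by
    have := Nat.lt_mul_div_succ u (show 0 < 2 ^ b by positivity)
    rw [mul_add, mul_one]
    omega
  calc u + 2 ^ b < 2 ^ b * (u / 2 ^ b + 1 + 1) := h4
    _ ≤ 2 ^ b * 2 ^ (c + 1) := Nat.mul_le_mul_left _ h3
    _ = _ := by ring

theorem Bdd.dnF {K b : ℕ} (hb : b < K) {f : ℕ → M} {B : ℝ} (h : Bdd (2 ^ K) f B) :
    Bdd (2 ^ K) (dnF b f) (2 * B) := by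
  intro u hu
  have h1 := h u hu
  have h0 : 0 ≤ B := (norm_nonneg _).trans h1
  unfold H282.dnF
  cases hb' : u.testBit b
  · simp only [Bool.false_eq_true, if_false]
    have h2 := h _ (lt_of_testBit_false hb hu hb')
    have h3 := norm_add_le (f u) (f (u + 2 ^ b))
    linarith
  · simp only [if_true]
    linarith

theorem Bdd.upF {K : ℕ} (b : ℕ) {f : ℕ → M} {B : ℝ} (h : Bdd (2 ^ K) f B) :
    Bdd (2 ^ K) (upF b f) (2 * B) := by
  intro u hu
  have h1 := h u hu
  have h0 : 0 ≤ B := (norm_nonneg _).trans h1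
  unfold H282.upF
  cases hb' : u.testBit b
  · simp only [Bool.false_eq_true, if_false]
    linarith
  · simp only [if_true]
    have h2 := h (u - 2 ^ b) (lt_of_le_of_lt (Nat.sub_le _ _) hu)
    have h3 := norm_add_le (f u) (f (u - 2 ^ b))
    linarith

theorem Bdd.foldr_dn {K : ℕ} {J : List ℕ} (hJ : ∀ b ∈ J, b < K) {f : ℕ → M} {B : ℝ}
    (h : Bdd (2 ^ K) f B) : Bdd (2 ^ K) (J.foldr H282.dnF f) (2 ^ J.length * B) := by
  induction J with
  | nil => simpa using h
  | cons b J ih =>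
    have h1 := Bdd.dnF (hJ b List.mem_cons_self) (ih fun b hb => hJ b (List.mem_cons_of_mem _ hb))
    rw [List.foldr_cons, List.length_cons, pow_succ', mul_assoc]
    exact h1

theorem Bdd.foldr_up {K : ℕ} (J : List ℕ) {f : ℕ → M} {B : ℝ}
    (h : Bdd (2 ^ K) f B) : Bdd (2 ^ K) (J.foldr H282.upF f) (2 ^ J.length * B) := by
  induction J with
  | nil => simpa using h
  | cons b J ih =>
    have h1 := Bdd.upF b ih
    rw [List.foldr_cons, List.length_cons, pow_succ', mul_assoc]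
    exact h1

/-- the bit positions of a step are below `K` -/
def okS (K : ℕ) : St δ → Prop
  | .dn J => ∀ b ∈ J, b < K
  | .up J => ∀ b ∈ J, b < K
  | .dg _ => True

variable [NormedSpace ℂ M]

/-- **The sup norm of the array after one step.** -/
theorem Bdd.ex {G : Geo} {lv : ℕ → δ → ℕ → ℂ} {β K : ℕ}
    (hlv : ∀ i c p, ‖lv (G.q i) c p‖ ≤ 2 ^ β) (hq : ∀ i, G.q i ≤ 2 ^ G.a) {st : St δ}
    (hst : okS K st) {f : ℕ → M} {B : ℝ} (h : Bdd (2 ^ K) f B) :
    Bdd (2 ^ K) (st.ex G lv f) (2 ^ lgS β (G.a * G.d) st * B) := by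
  cases st with
  | dn J => exact h.foldr_dn hst
  | up J => exact h.foldr_up J
  | dg c =>
    intro u hu
    have h1 := h u hu
    simp only [St.ex, lgS]
    rw [norm_smul]
    exact mul_le_mul (norm_val hlv hq c u) h1 (norm_nonneg _) (by positivity)

/-- **The sup norm of the array after a list of steps.** -/
theorem bdd_exs {G : Geo} {lv : ℕ → δ → ℕ → ℂ} {β K : ℕ}
    (hlv : ∀ i c p, ‖lv (G.q i) c p‖ ≤ 2 ^ β) (hq : ∀ i, G.q i ≤ 2 ^ G.a) (l : List (St δ))
    (hl : ∀ st ∈ l, okS K st) {f : ℕ → M} {B : ℝ} (h : Bdd (2 ^ K) f B) :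
    Bdd (2 ^ K) (exs G lv l f) (2 ^ (l.map (lgS β (G.a * G.d))).sum * B) := by
  induction l using List.reverseRecOn with
  | nil => simpa [exs] using h
  | append_singleton l st ih =>
    have h1 := Bdd.ex hlv hq (hl st (by simp)) (ih fun st hst => hl st (by simp [hst]))
    have e : exs G lv (l ++ [st]) f = st.ex G lv (exs G lv l f) := by simp [exs]
    rw [e, List.map_append, List.sum_append, List.map_singleton, List.sum_singleton, pow_add,
      mul_comm ((2 : ℝ) ^ _) (2 ^ _), mul_assoc]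
    exact h1

end Ex

/-! ### Fixed point constants -/

/-- the size of a word of a constant -/
theorem norm_word {s l : ℕ} {z : ℂ} (hz : ‖z‖ ≤ 2 ^ l) {C : ℤ × ℤ}
    (h1 : |(C.1 : ℝ) - 2 ^ s * z.re| ≤ 1) (h2 : |(C.2 : ℝ) - 2 ^ s * z.im| ≤ 1) :
    (|C.1| : ℝ) ≤ 2 ^ (s + l) + 1 ∧ (|C.2| : ℝ) ≤ 2 ^ (s + l) + 1 ∧
    ‖(⟨(C.1 : ℝ) / 2 ^ s, (C.2 : ℝ) / 2 ^ s⟩ : ℂ) - z‖ ≤ 2 / 2 ^ s ∧
    ‖(⟨(C.1 : ℝ) / 2 ^ s, (C.2 : ℝ) / 2 ^ s⟩ : ℂ)‖ ≤ 2 ^ l + 2 / 2 ^ s := by
  have hp : (0 : ℝ) < 2 ^ s := by positivity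
  have a1 : |2 ^ s * z.re| ≤ 2 ^ (s + l) := by
    rw [abs_mul, abs_of_pos hp, pow_add]
    exact mul_le_mul_of_nonneg_left ((Complex.abs_re_le_norm z).trans hz) hp.le
  have a2 : |2 ^ s * z.im| ≤ 2 ^ (s + l) := by
    rw [abs_mul, abs_of_pos hp, pow_add]
    exact mul_le_mul_of_nonneg_left ((Complex.abs_im_le_norm z).trans hz) hp.le
  have b1 : (|C.1| : ℝ) ≤ |(C.1 : ℝ) - 2 ^ s * z.re| + |2 ^ s * z.re| := by
    have := abs_add_le ((C.1 : ℝ) - 2 ^ s * z.re) (2 ^ s * z.re)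
    simpa using this
  have b2 : (|C.2| : ℝ) ≤ |(C.2 : ℝ) - 2 ^ s * z.im| + |2 ^ s * z.im| := by
    have := abs_add_le ((C.2 : ℝ) - 2 ^ s * z.im) (2 ^ s * z.im)
    simpa using this
  have c3 : ‖(⟨(C.1 : ℝ) / 2 ^ s, (C.2 : ℝ) / 2 ^ s⟩ : ℂ) - z‖ ≤ 2 / 2 ^ s := by
    refine (Complex.norm_le_abs_re_add_abs_im _).trans ?_
    rw [Complex.sub_re, Complex.sub_im]
    have e1 : (C.1 : ℝ) / 2 ^ s - z.re = ((C.1 : ℝ) - 2 ^ s * z.re) / 2 ^ s := by
      field_simp
    have e2 : (C.2 : ℝ) / 2 ^ s - z.im = ((C.2 : ℝ) - 2 ^ s * z.im) / 2 ^ s := by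
      field_simp
    simp only
    rw [e1, e2, abs_div, abs_div, abs_of_pos hp, ← add_div]
    gcongr
    linarith
  refine ⟨by linarith, by linarith, c3, ?_⟩
  have := norm_add_le ((⟨(C.1 : ℝ) / 2 ^ s, (C.2 : ℝ) / 2 ^ s⟩ : ℂ) - z) z
  rw [sub_add_cancel] at this
  linarith

end Vale.Agent.P338.R3.H288
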