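import Vale.Agent.P338.R3.H288.Lip
import Vale.Agent.P338.R3.H121.Lam

/-!
P338-D, LIP (2): the bounds for the geometry `geo d s` of the parameters, the one-digit codes
`H352.Dc` and the exponents `lgK` of `H121.Lam`.
-/

namespace Vale.Agent.P338.R3.H288

open Vale.Agent.P338.R3.H282 Vale.Agent.P338.R3.H121 Vale.Agent.P338.R3.H501.Rad
open Vale.Agent.P338.R3.H352 (Dc)

variable {δ : Type}

theorem lgS_eq (G : Geo) (st : St δ) : lgS (G.a + 2) (G.a * G.d) st = lgK G st := by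
  cases st with
  | dn J => rfl
  | up J => rfl
  | dg c => cases c <;> rfl

/-- entries of the diagonals, general geometry -/
theorem norm_val_lgK {G : Geo} {lv : ℕ → δ → ℕ → ℂ}
    (hlv : ∀ i c p, ‖lv (G.q i) c p‖ ≤ 2 ^ (G.a + 2)) (hq : ∀ i, G.q i ≤ 2 ^ G.a) (c : DC δ)
    (u : ℕ) : ‖G.val lv c u‖ ≤ 2 ^ lgK G (.dg c) := by
  rw [← lgS_eq]
  exact norm_val hlv hq c u

/-- **Entries of all diagonals of the schedule.** -/
theorem norm_val_geo (d s : ℕ) (c : DC Dc) (u : ℕ) :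
    ‖(geo d s).val (fun q => Dc.val (aR d) q) c u‖ ≤ 2 ^ lgK (geo d s) (.dg c) :=
  norm_val_lgK (fun i c p => norm_Dc (aR d) (sR_pos d i) c p) (fun i => sR_le d i) c u

theorem one_le_two_pow_lgK (G : Geo) (st : St δ) : (1 : ℝ) ≤ 2 ^ lgK G st :=
  one_le_pow₀ (by norm_num)

theorem tot_eq_sum (v : St δ → ℕ) (l : List (St δ)) : tot v l = (l.map v).sum := rfl

end Vale.Agent.P338.R3.H288
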