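import Vale.Agent.P338.R3.H288.LipGeo

/-!
P338-D, LIP (3): all bit positions of the steps of the schedule are below `a * d + s`.
-/

namespace Vale.Agent.P338.R3.H288

open Vale.Agent.P338.R3.H282 Vale.Agent.P338.R3.H121

variable {δ : Type}

/-- the bits of a local layer are at most `a` -/
def okL (a : ℕ) : Ly δ → Prop
  | .dn t => t ≤ a
  | .up t => t ≤ a
  | .dg _ => True

theorem bp_lt {G : Geo} (hs : G.d ≤ G.s) {t i : ℕ} (hi : i < G.d) :
    G.bp t i < G.a * G.d + G.s := by
  unfold Geo.bp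
  split_ifs with h
  · have : G.a * (i + 1) ≤ G.a * G.d := Nat.mul_le_mul_left _ hi
    rw [mul_add, mul_one] at this
    omega
  · omega

theorem okS_lk {G : Geo} (hs : G.d ≤ G.s) {J : List ℕ} (hJ : ∀ i ∈ J, i < G.d) (l : Ly δ) :
    okS (G.a * G.d + G.s) (G.lk J l) := by
  cases l with
  | dn t =>
    intro b hb
    obtain ⟨i, hi, rfl⟩ := List.mem_map.1 hb
    exact bp_lt hs (hJ i hi)
  | up t =>
    intro b hb
    obtain ⟨i, hi, rfl⟩ := List.mem_map.1 hb
    exact bp_lt hs (hJ i hi)
  | dg c => trivial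

theorem okS_W {G : Geo} (hs : G.d ≤ G.s) (prog : List (Ly δ)) {J : List ℕ}
    (hJ : ∀ i ∈ J, i < G.d) : ∀ st ∈ G.W prog J, okS (G.a * G.d + G.s) st := by
  intro st hst
  obtain ⟨l, _, rfl⟩ := List.mem_map.1 hst
  exact okS_lk hs hJ l

theorem posJ_lt (G : Geo) (p : ℕ) : ∀ i ∈ G.posJ p, i < G.d := fun i hi => by
  simpa using (List.mem_filter.1 hi).1

theorem grpJ_lt (G : Geo) (g : ℕ) : ∀ i ∈ G.grpJ g, i < G.d := fun i hi => by
  simpa using (List.mem_filter.1 hi).1

theorem okS_selF {G : Geo} {i : ℕ} (hi : i < G.s) :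
    ∀ st ∈ G.selF (δ := δ) i, okS (G.a * G.d + G.s) st := by
  intro st hst
  simp only [Geo.selF, List.mem_cons, List.not_mem_nil, or_false] at hst
  rcases hst with rfl | rfl | rfl | rfl
  · intro b hb
    rw [List.mem_singleton.1 hb]
    omega
  · trivial
  · intro b hb
    rw [List.mem_singleton.1 hb]
    omega
  · trivial

theorem okS_selI {G : Geo} {i : ℕ} (hi : i < G.s) :
    ∀ st ∈ G.selI (δ := δ) i, okS (G.a * G.d + G.s) st := by
  intro st hst
  simp only [Geo.selI, List.mem_cons, List.not_mem_nil, or_false] at hst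
  rcases hst with rfl | rfl | rfl | rfl
  · trivial
  · intro b hb
    rw [List.mem_singleton.1 hb]
    omega
  · trivial
  · intro b hb
    rw [List.mem_singleton.1 hb]
    omega

theorem okS_stA {G : Geo} (hs : G.d ≤ G.s) (prog : List (Ly δ)) (neg : Bool) (p : ℕ) :
    ∀ st ∈ G.stA prog neg p, okS (G.a * G.d + G.s) st := by
  intro st hst
  simp only [Geo.stA, List.mem_append, List.mem_cons] at hst
  rcases hst with h | rfl | h
  · exact okS_W hs prog (posJ_lt G p) st h
  · trivial
  · exact okS_W hs prog (posJ_lt G p) st h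

theorem okS_stB {G : Geo} (hs : G.d ≤ G.s) (prog : List (Ly δ)) (neg : Bool) (g : ℕ) :
    ∀ st ∈ G.stB prog neg g, okS (G.a * G.d + G.s) st := by
  intro st hst
  simp only [Geo.stB, List.mem_append, List.mem_cons] at hst
  rcases hst with h | rfl | h
  · exact okS_W hs prog (grpJ_lt G g) st h
  · trivial
  · exact okS_W hs prog (grpJ_lt G g) st h

/-- the forward schedule -/
theorem okS_fwd {G : Geo} (hs : G.d ≤ G.s) (prog : List (Ly δ)) :
    ∀ st ∈ G.fwd prog, okS (G.a * G.d + G.s) st := by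
  intro st hst
  simp only [Geo.fwd, List.mem_append, List.mem_flatMap, List.mem_reverse, List.mem_range] at hst
  rcases hst with ⟨i, hi, h⟩ | ⟨p, _, h⟩ | ⟨g, _, h⟩ | h
  · exact okS_selF hi st h
  · exact okS_stA hs prog false p st h
  · exact okS_stB hs prog false g st h
  · exact okS_W hs prog (fun i hi => List.mem_range.1 hi) st h

/-- the schedule after the product -/
theorem okS_bwd {G : Geo} (hs : G.d ≤ G.s) (prog : List (Ly δ)) :
    ∀ st ∈ G.bwd prog, okS (G.a * G.d + G.s) st := by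
  intro st hst
  simp only [Geo.bwd, List.mem_append, List.mem_cons, List.mem_flatMap, List.mem_range] at hst
  rcases hst with rfl | h | ⟨g, _, h⟩ | ⟨p, _, h⟩ | ⟨i, hi, h⟩
  · trivial
  · exact okS_W hs prog (fun i hi => List.mem_range.1 hi) st h
  · exact okS_stB hs prog true g st h
  · exact okS_stA hs prog true p st h
  · exact okS_selI hi st h

end Vale.Agent.P338.R3.H288
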